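import Vale.Agent.P109.Chart
import Vale.Agent.P109.Process

/-!
P109: no bound on the growth of derivatives allows every finite-entropy ergodic system to be
realised smoothly with positive volume.
-/

open MeasureTheory Set Filter Function
open scoped Manifold

namespace Vale.Agent.P109

theorem iterate_shift (t : ℕ) (x : Seq) : shift^[t] x = fun s => x (s + t) := by
  induction t with
  | zero => simp
  | succ t ih =>
    funext s
    rw [iterate_succ_apply', ih]
    simp only [shift]
    congr 1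
    push_cast
    ring

/-- The name law of a realised system is the window law. -/
theorem window_law {X : Type} [MeasurableSpace X] {μ : Measure Seq} {ν : Measure X}
    {S : X → X} {F : Seq → X} {G : X → Seq} (hF : MeasurePreserving F μ ν) (hG : Measurable G)
    (hS : MeasurePreserving S ν ν) (hσ : MeasurePreserving shift μ μ)
    (hFS : ∀ᵐ x ∂μ, F (shift x) = S (F x)) (hGF : ∀ᵐ x ∂μ, G (F x) = x)
    (n : ℕ) (A : Finset (Word n)) :
    μ.real (window n ⁻¹' (A : Set (Word n))) =
      ν.real {y | (fun t : Fin n => G (S^[(t : ℕ)] y) 0) ∈ A} := by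
  have hm : MeasurableSet {y | (fun t : Fin n => G (S^[(t : ℕ)] y) 0) ∈ A} :=
    (measurable_pi_lambda _ fun t : Fin n => (measurable_pi_apply (0 : ℤ)).comp
      (hG.comp (hS.measurable.iterate (t : ℕ)))) A.finite_toSet.measurableSet
  rw [← hF.measureReal_preimage hm.nullMeasurableSet]
  refine measureReal_congr ?_
  have h1 : ∀ᵐ x ∂μ, ∀ t : ℕ, F (shift (shift^[t] x)) = S (F (shift^[t] x)) :=
    ae_all_iff.2 fun t => (hσ.iterate t).quasiMeasurePreserving.ae hFS
  have h2 : ∀ᵐ x ∂μ, ∀ t : ℕ, G (F (shift^[t] x)) = shift^[t] x :=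
    ae_all_iff.2 fun t => (hσ.iterate t).quasiMeasurePreserving.ae hGF
  filter_upwards [h1, h2] with x hx hx2
  have hit : ∀ t : ℕ, S^[t] (F x) = F (shift^[t] x) := by
    intro t
    induction t with
    | zero => rfl
    | succ t ih => rw [iterate_succ_apply', iterate_succ_apply', ih, hx t]
  have e : window n x = fun t : Fin n => G (S^[(t : ℕ)] (F x)) 0 := by
    funext t
    rw [hit, hx2, iterate_shift]
    simp [window]
  change (window n x ∈ A) = ((fun t : Fin n => G (S^[(t : ℕ)] (F x)) 0) ∈ A)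
  rw [e]

end Vale.Agent.P109

namespace Vale.Agent.Results.P109.NoBoundedGrowthModel

open Vale.Agent.P109

/-- For every sequence `B` there is an ergodic, nonatomic shift-invariant probability measure on a
shift over a finite alphabet with no smooth positive-volume model whose derivatives, in finitely
many charts, grow at most like `C ^ (k + 1) * B k`. -/
theorem result : ∀ B : ℕ → ℝ, ∃ μ : Measure (ℤ → Fin (2 ^ 16)),
    IsProbabilityMeasure μ ∧ Ergodic (fun x t => x (t + 1)) μ ∧ (∀ x, μ {x} = 0) ∧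
    ∀ (E : Type) [NormedAddCommGroup E] [NormedSpace ℝ E] [FiniteDimensional ℝ E]
      [MeasurableSpace E] [BorelSpace E] (H : Type) [TopologicalSpace H]
      (I : ModelWithCorners ℝ E H) (M : Type) [TopologicalSpace M] [CompactSpace M] [T2Space M]
      [MeasurableSpace M] [BorelSpace M] [ChartedSpace H M] [IsManifold I (⊤ : ℕ∞) M]
      (ν : Measure M) [IsProbabilityMeasure ν] (S : M → M),
      (∀ e ∈ IsManifold.maximalAtlas I (⊤ : ℕ∞) M,
        (ν.restrict e.source).map (e.extend I) ≪ Measure.addHaar) →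
      ContMDiff I I (⊤ : ℕ∞) S → MeasurePreserving S ν ν →
      (∃ (m : ℕ) (e : Fin m → OpenPartialHomeomorph M H),
        (∀ i, e i ∈ IsManifold.maximalAtlas I (⊤ : ℕ∞) M) ∧ (∀ x, ∃ i, x ∈ (e i).source) ∧
        ∀ i j, ∀ K, K ⊆ ((e i).extend I).target ∩ ((e i).extend I).symm ⁻¹'
              (S ⁻¹' (e j).source) → IsCompact K →
          ∃ C : ℝ, ∀ k : ℕ, ∀ u ∈ K,
            ‖iteratedFDerivWithin ℝ k ((e j).extend I ∘ S ∘ ((e i).extend I).symm)
              (((e i).extend I).target ∩ ((e i).extend I).symm ⁻¹' (S ⁻¹' (e j).source)) u‖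
            ≤ C ^ (k + 1) * B k) →
      ¬ ∃ (F : (ℤ → Fin (2 ^ 16)) → M) (G : M → (ℤ → Fin (2 ^ 16))),
        MeasurePreserving F μ ν ∧ Measurable G ∧
        (∀ᵐ x ∂μ, F (fun t => x (t + 1)) = S (F x)) ∧ (∀ᵐ x ∂μ, G (F x) = x) := by
  intro B
  classical
  have : Nonempty Tau := ⟨⟨0, 0, 0, 0, fun i => i.elim0, fun i => i.elim0⟩⟩
  obtain ⟨τs, hτs⟩ := exists_surjective_nat Tau
  have hev : ∀ i a, ∃ N, ∀ n, N ≤ n →
      (τs i).Fit a (natBound B) n ∧ (τs i).J + 1 ≤ (τs i).gexp a n := fun i a =>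
    eventually_atTop.1 (((τs i).eventually_fit a (natBound B)).and
      (((τs i).tendsto_gexp a).eventually_ge_atTop _))
  choose N hN using hev
  obtain ⟨μ, hμ, herg, hat, hesc⟩ := processStmt (fun i a n => (τs i).cands a n) N
    fun i a n hn => ⟨(hN i a n hn).1.card, fun q hq => (((τs i).mem_cands a).1 hq).2⟩
  refine ⟨μ, hμ, herg, hat, ?_⟩
  intro E _ _ _ _ _ H _ I M _ _ _ _ _ _ _ ν _ S hac hS hpres hgrowth hex
  obtain ⟨m, e, hmax, hcov, hbound⟩ := hgrowth
  obtain ⟨F, G, hF, hG, hFS, hGF⟩ := hex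
  have hQ : Measurable fun y => G y 0 := (measurable_pi_apply (0 : ℤ)).comp hG
  obtain ⟨τ, hτm, ⟨pc⟩⟩ := exists_pieces I B e hmax hcov (fun i => hac _ (hmax i)) hS hbound hQ
  obtain ⟨i, hi⟩ := hτs τ
  subst hi
  obtain ⟨a, n, hn, hne⟩ := hesc i
  obtain ⟨q, hq, hclose⟩ := pc.exists_close hpres hQ hτm (hN i a n hn).1 (hN i a n hn).2
  refine hne q hq fun A => ?_
  rw [window_law hF hG hpres herg.toMeasurePreserving hFS hGF n A]
  exact hclose A

end Vale.Agent.Results.P109.NoBoundedGrowthModel
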